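import Crest.Agent.H0071.Det

set_option autoImplicit false
open Finset

namespace Crest.Agent.H0071

variable {α : Type*} [Fintype α] [DecidableEq α]

def prof (R : ℕ) (Z : α → ℕ) (T : Finset α) : Fin R → ℕ :=
  fun j => (T.filter fun x => Z x = j).card

omit [Fintype α] [DecidableEq α] in
lemma prod_prof {M : Type*} [CommMonoid M] (R : ℕ) (Z : α → ℕ) (T : Finset α)
    (hT : ∀ x ∈ T, Z x < R) (φ : ℕ → M) :
    ∏ x ∈ T, φ (Z x) = ∏ j : Fin R, φ j ^ prof R Z T j := by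
  rw [← Finset.prod_fiberwise_of_maps_to (g := Z) (t := range R)
    (fun x hx => mem_range.2 (hT x hx))]
  rw [← Fin.prod_univ_eq_prod_range (fun j => ∏ x ∈ T with Z x = j, φ (Z x))]
  refine prod_congr rfl fun j _ => ?_
  rw [prod_congr rfl (g := fun _ => φ j) fun x hx => by rw [(mem_filter.1 hx).2]]
  simp [prof]

omit [Fintype α] [DecidableEq α] in
lemma sum_prof {M : Type*} [AddCommMonoid M] (R : ℕ) (Z : α → ℕ) (T : Finset α)
    (hT : ∀ x ∈ T, Z x < R) (φ : ℕ → M) :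
    ∑ x ∈ T, φ (Z x) = ∑ j : Fin R, prof R Z T j • φ j :=
  prod_prof (M := Multiplicative M) R Z T hT φ

def UU {R : ℕ} (n : Fin R → ℕ) (j : ℕ) : ℕ := ∑ i : Fin R, n i • (if (i : ℕ) ≤ j then 1 else 0)

omit [Fintype α] [DecidableEq α] in
lemma cum_eq (R : ℕ) (Z : α → ℕ) (T : Finset α) (hT : ∀ x ∈ T, Z x < R) :
    cum Z T = UU (prof R Z T) := by
  funext j
  unfold cum UU
  rw [← sum_prof R Z T hT (fun i => if i ≤ j then 1 else 0), card_filter]

lemma UU_le {R : ℕ} (n : Fin R → ℕ) (j : ℕ) : UU n j ≤ ∑ i, n i := by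
  refine sum_le_sum fun i _ => ?_
  split_ifs <;> simp

lemma geo (R : ℕ) : ∑ j : Fin R, (1 / 2 : ℝ) ^ (j : ℕ) ≤ 2 := by
  rw [Fin.sum_univ_eq_sum_range (fun j => (1 / 2 : ℝ) ^ j)]
  exact sum_geometric_two_le R

lemma geo2 (a : ℝ) (h0 : 0 ≤ a) (h1 : a ≤ 1 / 2) (N : ℕ) : ∑ i ∈ range N, a ^ i ≤ 1 + 2 * a := by
  have : ∀ N, ∑ i ∈ range (N + 1), a ^ i + 2 * a ^ (N + 1) ≤ 1 + 2 * a := by
    intro N
    induction N with
    | zero => simp
    | succ N ih =>
      rw [sum_range_succ]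
      have : 2 * a ^ (N + 1 + 1) ≤ a ^ (N + 1) := by
        rw [pow_succ a (N + 1)]
        have := pow_nonneg h0 (N + 1)
        nlinarith
      linarith
  have h2 := this N
  rw [sum_range_succ] at h2
  have := pow_nonneg h0 (N + 1)
  have := pow_nonneg h0 N
  linarith

lemma sum_profiles (R N : ℕ) :
    ∑ n ∈ (Fintype.piFinset fun _ : Fin R => range N).erase 0,
      ∏ j : Fin R, (1 / 64 * (1 / 2 : ℝ) ^ (j : ℕ)) ^ n j ≤ 1 / 8 := by
  rcases Nat.eq_zero_or_pos N with rfl | hN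
  · rw [sum_eq_zero]
    · norm_num
    intro n hn
    exfalso
    have h1 := (mem_erase.1 hn).1
    have h2 := Fintype.mem_piFinset.1 (mem_erase.1 hn).2
    apply h1
    funext j
    simpa using h2 j
  have h0 : (0 : Fin R → ℕ) ∈ Fintype.piFinset fun _ : Fin R => range N := by
    simp [Fintype.mem_piFinset, hN]
  have h1 := Finset.add_sum_erase _
    (fun n : Fin R → ℕ => ∏ j : Fin R, (1 / 64 * (1 / 2 : ℝ) ^ (j : ℕ)) ^ n j) h0
  rw [← Finset.prod_univ_sum (fun _ : Fin R => range N)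
    (fun j i => (1 / 64 * (1 / 2 : ℝ) ^ (j : ℕ)) ^ i)] at h1
  have h2 : ∏ j : Fin R, ∑ i ∈ range N, (1 / 64 * (1 / 2 : ℝ) ^ (j : ℕ)) ^ i ≤
      ∏ j : Fin R, Real.exp (2 * (1 / 64 * (1 / 2 : ℝ) ^ (j : ℕ))) := by
    refine prod_le_prod (fun j _ => by positivity) fun j _ => ?_
    refine le_trans (geo2 _ (by positivity) ?_ _) (by linarith [Real.add_one_le_exp (2 * (1 / 64 * (1 / 2 : ℝ) ^ (j : ℕ)))])
    have : (1 / 2 : ℝ) ^ (j : ℕ) ≤ 1 := pow_le_one₀ (by norm_num) (by norm_num)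
    linarith
  rw [← Real.exp_sum] at h2
  have h3 : ∑ j : Fin R, 2 * (1 / 64 * (1 / 2 : ℝ) ^ (j : ℕ)) ≤ 1 / 16 := by
    rw [← mul_sum, ← mul_sum]
    linarith [geo R]
  have h4 : Real.exp (1 / 16) ≤ 1 + 1 / 8 := by
    have := Real.exp_bound_div_one_sub_of_interval' (x := 1 / 16) (by norm_num) (by norm_num)
    linarith
  have h5 := Real.exp_le_exp.2 h3
  simp only [Pi.zero_apply, pow_zero, prod_const_one] at h1
  linarith

open Classical in
lemma count (R : ℕ) (Z : α → ℕ) (A : (ℕ → ℕ) → ℕ → Finset α)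
    (hA : ∀ u j, (A u j).card ≤ u j * 2 ^ (j + 1)) :
    ∑ T ∈ univ.filter (fun T : Finset α => T ≠ ∅ ∧ ∀ x ∈ T, Z x < R ∧ x ∈ A (cum Z T) (Z x)),
      ∏ x ∈ T, (1 / (1024 * 8 ^ Z x) : ℝ) ≤ 1 / 8 := by
  refine le_trans ?_ (sum_profiles R (Fintype.card α + 1))
  rw [← Finset.sum_fiberwise_of_maps_to (g := prof R Z)
    (t := (Fintype.piFinset fun _ : Fin R => range (Fintype.card α + 1)).erase 0)]
  swap
  · intro T hT
    obtain ⟨h1, h2⟩ := (mem_filter.1 hT).2
    refine mem_erase.2 ⟨fun h => ?_, Fintype.mem_piFinset.2 fun j => mem_range.2 ?_⟩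
    · obtain ⟨x, hx⟩ := nonempty_iff_ne_empty.2 h1
      have := congrFun h ⟨Z x, (h2 x hx).1⟩
      simp only [prof, Pi.zero_apply, card_eq_zero, filter_eq_empty_iff] at this
      exact this hx rfl
    · exact Nat.lt_succ_of_le (card_le_univ _)
  refine sum_le_sum fun n _ => ?_
  set B := univ.filter fun x => Z x < R ∧ x ∈ A (UU n) (Z x) with hB
  set y : ℕ → ℝ := fun j => 1 / (4 * 4 ^ j) with hy
  have hy0 : ∀ j, 0 < y j := fun j => by positivity
  have hBsum : ∑ x ∈ B, y (Z x) ≤ ∑ i, (n i : ℝ) := by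
    rw [sum_prof R Z B (fun x hx => (mem_filter.1 hx).2.1)]
    have : ∀ j : Fin R, prof R Z B j • y j ≤ (∑ i, (n i : ℝ)) / 2 * (1 / 2 : ℝ) ^ (j : ℕ) := by
      intro j
      have h1 : prof R Z B j ≤ (∑ i, n i) * 2 ^ ((j : ℕ) + 1) := by
        refine le_trans (card_le_card ?_)
          (le_trans (hA (UU n) j) (Nat.mul_le_mul_right _ (UU_le n j)))
        intro x hx
        have h2 := (mem_filter.1 (mem_filter.1 hx).1).2.2
        rwa [(mem_filter.1 hx).2] at h2
      have h2 : (prof R Z B j : ℝ) ≤ (∑ i, (n i : ℝ)) * 2 ^ ((j : ℕ) + 1) := by exact_mod_cast h1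
      rw [nsmul_eq_mul]
      refine le_trans (mul_le_mul_of_nonneg_right h2 (hy0 j).le) (le_of_eq ?_)
      have h4 : (4 : ℝ) ^ (j : ℕ) = 2 ^ (j : ℕ) * 2 ^ (j : ℕ) := by rw [← mul_pow]; norm_num
      simp only [hy, h4, one_div, inv_pow]
      field_simp
      ring
    refine le_trans (sum_le_sum fun j _ => this j) ?_
    rw [← mul_sum]
    have h3 : 0 ≤ ∑ i, (n i : ℝ) := by positivity
    nlinarith [geo R]
  calc _ ≤ ∑ T ∈ B.powerset, (∏ j : Fin R, (1 / 256 * (1 / 2 : ℝ) ^ (j : ℕ)) ^ n j) *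
          ∏ x ∈ T, y (Z x) := by
        rw [← sum_filter_add_sum_filter_not B.powerset (fun T => T ∈ (univ.filter
          (fun T : Finset α => T ≠ ∅ ∧ ∀ x ∈ T, Z x < R ∧ x ∈ A (cum Z T) (Z x))).filter
            (fun T => prof R Z T = n))]
        refine le_trans (le_of_eq ?_) (le_add_of_nonneg_right
          (sum_nonneg fun T _ => mul_nonneg (by positivity)
            (prod_nonneg fun x _ => (hy0 _).le)))
        refine sum_congr ?_ fun T hT => ?_
        · ext T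
          refine ⟨fun hT => mem_filter.2 ⟨mem_powerset.2 fun x hx => ?_, hT⟩,
            fun hT => (mem_filter.1 hT).2⟩
          obtain ⟨h1, h2⟩ := mem_filter.1 hT
          obtain ⟨-, h3⟩ := (mem_filter.1 h1).2
          have h4 := cum_eq R Z T fun x hx => (h3 x hx).1
          rw [h2] at h4
          exact mem_filter.2 ⟨mem_univ _, (h3 x hx).1, h4 ▸ (h3 x hx).2⟩
        · obtain ⟨h1, h2⟩ := mem_filter.1 (mem_filter.1 hT).2
          obtain ⟨-, h3⟩ := (mem_filter.1 h1).2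
          rw [← h2, ← prod_prof R Z T (fun x hx => (h3 x hx).1)
            (fun j => 1 / 256 * (1 / 2 : ℝ) ^ j), ← prod_mul_distrib]
          refine prod_congr rfl fun x _ => ?_
          have h8 : (8 : ℝ) ^ Z x = 2 ^ Z x * 4 ^ Z x := by rw [← mul_pow]; norm_num
          simp only [hy, h8, one_div, inv_pow]
          field_simp
          norm_num
    _ = (∏ j : Fin R, (1 / 256 * (1 / 2 : ℝ) ^ (j : ℕ)) ^ n j) * ∏ x ∈ B, (1 + y (Z x)) := by
        rw [← mul_sum, prod_one_add]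
    _ ≤ (∏ j : Fin R, (1 / 256 * (1 / 2 : ℝ) ^ (j : ℕ)) ^ n j) * ∏ j : Fin R, (4 : ℝ) ^ n j := by
        refine mul_le_mul_of_nonneg_left ?_ (by positivity)
        calc ∏ x ∈ B, (1 + y (Z x)) ≤ ∏ x ∈ B, Real.exp (y (Z x)) :=
              prod_le_prod (fun x _ => by linarith [hy0 (Z x)])
                fun x _ => by linarith [Real.add_one_le_exp (y (Z x))]
          _ = Real.exp (∑ x ∈ B, y (Z x)) := (Real.exp_sum _ _).symm
          _ ≤ Real.exp (∑ i, (n i : ℝ)) := Real.exp_le_exp.2 hBsum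
          _ = ∏ i, Real.exp 1 ^ n i := by
              rw [Real.exp_sum]
              exact prod_congr rfl fun i _ => by rw [← Real.exp_nat_mul, mul_one]
          _ ≤ _ := prod_le_prod (fun i _ => by positivity) fun i _ =>
              pow_le_pow_left₀ (by positivity) (by linarith [Real.exp_one_lt_d9]) _
    _ = _ := by
        rw [← prod_mul_distrib]
        refine prod_congr rfl fun j _ => ?_
        rw [← mul_pow]
        congr 1
        ring

end Crest.Agent.H0071
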