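import Mathlib

set_option autoImplicit false
open Finset

namespace Crest.Agent.H0071

variable {α : Type*} [Fintype α] [DecidableEq α]

/-- upper level set of `lam` in `H` through `x0` -/
noncomputable def lev (lam : α → ℝ) (H : Finset α) (x0 : α) : Finset α :=
  H.filter fun z => lam x0 ≤ lam z

/-- number of points of `C` above level `j` -/
def miss (Z : α → ℕ) (j : ℕ) (C : Finset α) : ℕ := (C.filter fun z => j < Z z).card

def Ok (lam : α → ℝ) (H : Finset α) (Z : α → ℕ) (u : ℕ → ℕ) : Prop :=
  ∀ j, ∀ x0 ∈ H, miss Z j (lev lam H x0) * 2 ^ (j + 1) +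
    min (u j * 2 ^ (j + 1)) (lev lam H x0).card ≤ 2 * (lev lam H x0).card

/-- number of points of `T` of level at most `j` -/
def cum (Z : α → ℕ) (T : Finset α) (j : ℕ) : ℕ := (T.filter fun x => Z x ≤ j).card

def dif (Z w : α → ℕ) : Finset α := univ.filter fun x => Z x < w x

open Classical in
noncomputable def canon (F : Finset (Finset α)) (lam : Finset α → α → ℝ) (Z : α → ℕ)
    (u : ℕ → ℕ) : Finset α :=
  if h : ∃ H ∈ F, Ok (lam H) H Z u then h.choose else ∅

omit [Fintype α] [DecidableEq α] in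
lemma canon_spec {F : Finset (Finset α)} {lam : Finset α → α → ℝ} {Z : α → ℕ} {u : ℕ → ℕ}
    (h : ∃ H ∈ F, Ok (lam H) H Z u) :
    canon F lam Z u ∈ F ∧ Ok (lam (canon F lam Z u)) (canon F lam Z u) Z u := by
  unfold canon
  rw [dif_pos h]
  exact h.choose_spec

/-- the points of `H` lying in a level set of size at most `M` -/
noncomputable def top (lam : α → ℝ) (H : Finset α) (M : ℕ) : Finset α :=
  H.filter fun x => (lev lam H x).card ≤ M

omit [Fintype α] [DecidableEq α] in
lemma top_card (lam : α → ℝ) (H : Finset α) (M : ℕ) : (top lam H M).card ≤ M := by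
  rcases (top lam H M).eq_empty_or_nonempty with h | h
  · simp [h]
  obtain ⟨x, hx, hmin⟩ := Finset.exists_min_image _ lam h
  refine le_trans (Finset.card_le_card ?_) (mem_filter.1 hx).2
  intro z hz
  exact mem_filter.2 ⟨(mem_filter.1 hz).1, hmin z hz⟩

lemma det (F : Finset (Finset α)) (lam : Finset α → α → ℝ) (w : α → ℕ) (H : Finset α)
    (hH : H ∈ F) :
    ∃ Z : α → ℕ, (∀ x, Z x ≤ w x) ∧ (∀ x, x ∉ H → Z x = w x) ∧
      (∃ H' ∈ F, Ok (lam H') H' Z (cum Z (dif Z w))) ∧
      ∀ x ∈ dif Z w, x ∈ top (lam (canon F lam Z (cum Z (dif Z w))))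
        (canon F lam Z (cum Z (dif Z w))) (cum Z (dif Z w) (Z x) * 2 ^ (Z x + 1)) := by
  classical
  have hex : ∃ s, ∃ Z : α → ℕ, ((∀ x, Z x ≤ w x) ∧ (∀ x, x ∉ H → Z x = w x) ∧
      (∃ H' ∈ F, Ok (lam H') H' Z (cum Z (dif Z w)))) ∧ ∑ x, (w x - Z x) = s := by
    refine ⟨_, fun x => if x ∈ H then 0 else w x, ⟨fun x => ?_, fun x hx => ?_, H, hH, ?_⟩, rfl⟩
    · dsimp only
      split_ifs <;> simp
    · simp [hx]
    · intro j x0 _
      have : miss (fun x => if x ∈ H then 0 else w x) j (lev (lam H) H x0) = 0 := by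
        unfold miss
        rw [card_eq_zero, filter_eq_empty_iff]
        intro z hz
        simp [(mem_filter.1 hz).1]
      rw [this]
      have := min_le_right (cum (fun x => if x ∈ H then 0 else w x)
        (dif (fun x => if x ∈ H then 0 else w x) w) j * 2 ^ (j + 1)) (lev (lam H) H x0).card
      omega
  obtain ⟨Z, ⟨h1, h2, h3⟩, hs⟩ := Nat.find_spec hex
  refine ⟨Z, h1, h2, h3, fun x hx => ?_⟩
  by_contra hcon
  have hxw : Z x < w x := (mem_filter.1 hx).2
  obtain ⟨hc1, hc2⟩ := canon_spec h3
  set H' := canon F lam Z (cum Z (dif Z w)) with hH'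
  set Z' := Function.update Z x (Z x + 1) with hZ'
  have hZ'x : Z' x = Z x + 1 := by simp [hZ']
  have hZ'y : ∀ y, y ≠ x → Z' y = Z y := fun y hy => by simp [hZ', hy]
  have hcum : ∀ j, (dif Z' w).filter (fun y => Z' y ≤ j) ⊆ (dif Z w).filter (fun y => Z y ≤ j) := by
    intro j y hy
    simp only [dif, mem_filter, mem_univ, true_and] at hy ⊢
    by_cases hyx : y = x
    · subst hyx; omega
    · rw [hZ'y y hyx] at hy; exact hy
  have hcum1 : ∀ j, cum Z' (dif Z' w) j ≤ cum Z (dif Z w) j := fun j => card_le_card (hcum j)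
  have hcum2 : cum Z' (dif Z' w) (Z x) + 1 ≤ cum Z (dif Z w) (Z x) := by
    apply card_lt_card
    refine ⟨hcum _, fun hsub => ?_⟩
    have := hsub (mem_filter.2 ⟨hx, le_rfl⟩)
    have := (mem_filter.1 this).2
    omega
  have hlt : ∑ y, (w y - Z' y) < Nat.find hex := by
    rw [← hs]
    refine Finset.sum_lt_sum (fun y _ => ?_) ⟨x, mem_univ _, by omega⟩
    by_cases hyx : y = x
    · subst hyx; omega
    · rw [hZ'y y hyx]
  refine Nat.find_min hex hlt ⟨Z', ⟨fun y => ?_, fun y hy => ?_, H', hc1, ?_⟩, rfl⟩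
  · by_cases hyx : y = x
    · subst hyx; omega
    · rw [hZ'y y hyx]; exact h1 y
  · by_cases hyx : y = x
    · subst hyx; have := h2 y hy; omega
    · rw [hZ'y y hyx]; exact h2 y hy
  · intro j x0 hx0
    have hok := hc2 j x0 hx0
    set C := lev (lam H') H' x0 with hC
    by_cases hcase : j = Z x ∧ x ∈ C
    · obtain ⟨hj, hxC⟩ := hcase
      subst hj
      have hm : miss Z' (Z x) C ≤ miss Z (Z x) C + 1 := by
        unfold miss
        refine le_trans (card_le_card (t := insert x (C.filter fun z => Z x < Z z)) ?_)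
          (card_insert_le _ _)
        intro y hy
        rw [mem_insert]
        by_cases hyx : y = x
        · exact Or.inl hyx
        · right
          rw [mem_filter, hZ'y y hyx] at hy
          exact mem_filter.2 hy
      have hxH : x ∈ H' := (mem_filter.1 hxC).1
      have hbig : cum Z (dif Z w) (Z x) * 2 ^ (Z x + 1) < C.card := by
        have h4 : ¬ (lev (lam H') H' x).card ≤ cum Z (dif Z w) (Z x) * 2 ^ (Z x + 1) :=
          fun h => hcon (mem_filter.2 ⟨hxH, h⟩)
        have h5 : (lev (lam H') H' x).card ≤ C.card := by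
          apply card_le_card
          intro y hy
          exact mem_filter.2 ⟨(mem_filter.1 hy).1, le_trans (mem_filter.1 hxC).2 (mem_filter.1 hy).2⟩
        omega
      rw [min_eq_left hbig.le] at hok
      have h6 := min_le_left (cum Z' (dif Z' w) (Z x) * 2 ^ (Z x + 1)) C.card
      have h7 := Nat.mul_le_mul_right (2 ^ (Z x + 1)) hm
      have h8 := Nat.mul_le_mul_right (2 ^ (Z x + 1)) hcum2
      rw [add_mul, one_mul] at h7 h8
      omega
    · have hm : miss Z' j C = miss Z j C := by
        unfold miss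
        congr 1
        refine filter_congr fun y hy => ?_
        by_cases hyx : y = x
        · subst hyx
          have : j ≠ Z y := fun h => hcase ⟨h, hy⟩
          omega
        · rw [hZ'y y hyx]
      rw [hm]
      have := min_le_min_right C.card (Nat.mul_le_mul_right (2 ^ (j + 1)) (hcum1 j))
      omega

omit [Fintype α] [DecidableEq α] in
/-- Abel summation along the level sets -/
lemma abel (c : α → ℝ) (H : Finset α) : ∀ lam : α → ℝ, (∀ x ∈ H, 0 ≤ lam x) →
    (∀ x0 ∈ H, 0 ≤ ∑ x ∈ lev lam H x0, c x) → 0 ≤ ∑ x ∈ H, c x * lam x := by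
  induction H using Finset.strongInduction with
  | H H ih =>
    intro lam h0 h1
    rcases H.eq_empty_or_nonempty with h | h
    · simp [h]
    obtain ⟨x0, hx0, hmin⟩ := Finset.exists_min_image _ lam h
    have hl : lev lam H x0 = H := filter_true_of_mem hmin
    have h2 := h1 x0 hx0
    rw [hl] at h2
    have h3 := ih (H.filter fun z => lam x0 < lam z)
      ⟨filter_subset _ _, fun hsub => lt_irrefl _ (mem_filter.1 (hsub hx0)).2⟩
      (fun z => lam z - lam x0) (fun z hz => by have := (mem_filter.1 hz).2; linarith)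
      (fun x1 hx1 => by
        have := h1 x1 (mem_filter.1 hx1).1
        convert this using 2
        ext z
        simp only [lev, mem_filter, sub_le_sub_iff_right]
        constructor
        · rintro ⟨⟨a, _⟩, b⟩; exact ⟨a, b⟩
        · rintro ⟨a, b⟩; exact ⟨⟨a, lt_of_lt_of_le (mem_filter.1 hx1).2 b⟩, b⟩)
    have h4 : ∑ x ∈ H.filter (fun z => lam x0 < lam z), c x * (lam x - lam x0) =
        ∑ x ∈ H, c x * (lam x - lam x0) := by
      rw [sum_filter]
      refine sum_congr rfl fun z hz => ?_
      split_ifs with hh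
      · rfl
      · have : lam z = lam x0 := le_antisymm (not_lt.1 hh) (hmin z hz)
        rw [this]; simp
    rw [h4] at h3
    have h5 : ∑ x ∈ H, c x * lam x =
        ∑ x ∈ H, c x * (lam x - lam x0) + (∑ x ∈ H, c x) * lam x0 := by
      rw [sum_mul, ← sum_add_distrib]
      exact sum_congr rfl fun z _ => by ring
    rw [h5]
    have := mul_nonneg h2 (h0 x0 hx0)
    linarith

end Crest.Agent.H0071
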