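import Crest.Agent.H0071.Count

set_option autoImplicit false
open Finset

namespace Crest.Agent.H0071

variable {α : Type*} [Fintype α] [DecidableEq α]

lemma exists_levels (q : ℝ) (hq : 0 < q) : ∃ (R : ℕ) (ρ : ℕ → ℝ), (∀ j, 0 ≤ ρ j) ∧
    ∑ j ∈ range (R + 1), ρ j = 1 ∧ (∀ j < R, ρ j = q * 8 ^ j) ∧ ∀ j ≤ R, ρ j ≤ q * 8 ^ j := by
  classical
  have hex : ∃ R, 1 ≤ ∑ j ∈ range (R + 1), q * 8 ^ j := by
    obtain ⟨R, hR⟩ := pow_unbounded_of_one_lt (q⁻¹ : ℝ) (y := 8) (by norm_num)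
    refine ⟨R, ?_⟩
    rw [sum_range_succ]
    have h1 : 0 ≤ ∑ j ∈ range R, q * 8 ^ j := by positivity
    have h2 : q * q⁻¹ ≤ q * 8 ^ R := by gcongr
    rw [mul_inv_cancel₀ hq.ne'] at h2
    linarith
  set R := Nat.find hex with hR
  have h1 := Nat.find_spec hex
  rw [← hR, sum_range_succ] at h1
  have h2 : ∑ j ∈ range R, q * 8 ^ j ≤ 1 := by
    rcases Nat.eq_zero_or_pos R with h | h
    · simp [h]
    · have := Nat.find_min hex (m := R - 1) (by omega)
      rw [Nat.sub_add_cancel h] at this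
      exact (not_le.1 this).le
  refine ⟨R, fun j => if j < R then q * 8 ^ j else 1 - ∑ j ∈ range R, q * 8 ^ j, fun j => ?_, ?_,
    fun j hj => by simp [hj], fun j hj => ?_⟩
  · dsimp only
    split_ifs
    · positivity
    · linarith
  · rw [sum_range_succ, if_neg (lt_irrefl _),
      sum_congr rfl (g := fun j => q * 8 ^ j) fun j hj => if_pos (mem_range.1 hj)]
    ring
  · dsimp only
    split_ifs with h
    · exact le_rfl
    · obtain rfl : j = R := by omega
      linarith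

open Classical in
lemma bad_bound (F : Finset (Finset α)) (lam : Finset α → α → ℝ) (p : ℝ) (hp : 0 < p) (R : ℕ)
    (ρ : ℕ → ℝ) (h0 : ∀ j, 0 ≤ ρ j) (h1 : ∑ j ∈ range (R + 1), ρ j = 1)
    (h2 : ∀ j < R, ρ j = 1024 * p * 8 ^ j)
    (hno : ∀ G : Finset (Finset α), (∀ H ∈ F, ∃ S ∈ G, S ⊆ H) → 1 / 2 ≤ ∑ S ∈ G, p ^ S.card) :
    ∑ w ∈ (Fintype.piFinset fun _ : α => range (R + 1)).filter
      (fun w => ¬ ∃ H ∈ F, Ok (lam H) H w 0), ∏ x, ρ (w x) ≤ 1 / 4 := by
  set W := Fintype.piFinset fun _ : α => range (R + 1) with hW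
  set A : (α → ℕ) → (ℕ → ℕ) → ℕ → Finset α := fun Z u j =>
    top (lam (canon F lam Z u)) (canon F lam Z u) (u j * 2 ^ (j + 1)) with hA
  set V : (α → ℕ) → Finset (Finset α) := fun Z => univ.filter
    (fun T : Finset α => T ≠ ∅ ∧ ∀ x ∈ T, Z x < R ∧ x ∈ A Z (cum Z T) (Z x)) with hV
  have hwt : ∀ w : α → ℕ, 0 ≤ ∏ x, ρ (w x) := fun w => prod_nonneg fun x _ => h0 _
  have step1 : ∀ w ∈ W.filter (fun w => ¬ ∃ H ∈ F, Ok (lam H) H w 0),
      1 / 2 ≤ ∑ Z ∈ W, ∑ T ∈ V Z, if (∀ x, x ∉ T → w x = Z x) then p ^ T.card else 0 := by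
    intro w hw
    obtain ⟨hwW, hbad⟩ := mem_filter.1 hw
    have hwR : ∀ x, w x ≤ R := fun x =>
      Nat.lt_succ_iff.1 (mem_range.1 (Fintype.mem_piFinset.1 hwW x))
    set D := W.filter fun Z => (∀ x, Z x ≤ w x) ∧ dif Z w ∈ V Z ∧ ∃ H ∈ F, dif Z w ⊆ H with hD
    have hcov : ∀ H ∈ F, ∃ S ∈ D.image (fun Z => dif Z w), S ⊆ H := by
      intro H hH
      obtain ⟨Z, z1, z2, z3, z4⟩ := det F lam w H hH
      have hsub : dif Z w ⊆ H := by
        intro x hx
        by_contra hxH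
        have := z2 x hxH
        have := (mem_filter.1 hx).2
        omega
      refine ⟨dif Z w, mem_image.2 ⟨Z, mem_filter.2 ⟨Fintype.mem_piFinset.2 fun x =>
        mem_range.2 (by have := z1 x; have := hwR x; omega), z1, ?_, H, hH, hsub⟩, rfl⟩, hsub⟩
      refine mem_filter.2 ⟨mem_univ _, fun hemp => hbad ?_, fun x hx => ⟨?_, z4 x hx⟩⟩
      · have hZ : Z = w := by
          funext x
          have : x ∉ dif Z w := by simp [hemp]
          simp only [dif, mem_filter, mem_univ, true_and] at this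
          have := z1 x
          omega
        rw [hemp, hZ] at z3
        have : cum w ∅ = 0 := by funext j; simp [cum]
        rwa [this] at z3
      · have := (mem_filter.1 hx).2
        have := hwR x
        omega
    refine le_trans (hno _ hcov) (le_trans
      (sum_image_le_of_nonneg fun _ _ => by positivity) ?_)
    rw [hD, sum_filter]
    refine sum_le_sum fun Z _ => ?_
    have hnn : ∀ T ∈ V Z, 0 ≤ if (∀ x, x ∉ T → w x = Z x) then p ^ T.card else 0 := by
      intro T _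
      split_ifs <;> positivity
    split_ifs with h
    · refine le_trans (le_of_eq ?_) (single_le_sum hnn h.2.1)
      rw [if_pos]
      intro x hx
      simp only [dif, mem_filter, mem_univ, true_and] at hx
      have := h.1 x
      omega
    · exact sum_nonneg hnn
  have step2 : ∀ Z ∈ W, ∀ T ∈ V Z,
      ∑ w ∈ W, (∏ x, ρ (w x)) * (if (∀ x, x ∉ T → w x = Z x) then p ^ T.card else 0) =
        (∏ x, ρ (Z x)) * ∏ x ∈ T, (1 / (1024 * 8 ^ Z x) : ℝ) := by
    intro Z hZ T hT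
    have hT' := (mem_filter.1 hT).2.2
    have e1 : ∀ w : α → ℕ,
        (∏ x, ρ (w x)) * (if (∀ x, x ∉ T → w x = Z x) then p ^ T.card else 0) =
        ∏ x, (ρ (w x) * if x ∈ T then p else if w x = Z x then 1 else 0) := by
      intro w
      rw [prod_mul_distrib]
      congr 1
      split_ifs with h
      · rw [prod_congr rfl (g := fun x => if x ∈ T then p else 1) fun x _ => by
          by_cases hx : x ∈ T
          · simp [hx]
          · simp [hx, h x hx]]
        simp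
      · push Not at h
        obtain ⟨x, hx, hx'⟩ := h
        exact (prod_eq_zero (mem_univ x) (by simp [hx, hx'])).symm
    rw [sum_congr rfl fun w _ => e1 w, hW, ← Finset.prod_univ_sum (fun _ : α => range (R + 1))
      (fun x a => ρ a * if x ∈ T then p else if a = Z x then 1 else 0)]
    have e2 : ∏ x ∈ T, (1 / (1024 * 8 ^ Z x) : ℝ) =
        ∏ x, if x ∈ T then (1 / (1024 * 8 ^ Z x) : ℝ) else 1 := by simp
    rw [e2, ← prod_mul_distrib]
    refine prod_congr rfl fun x _ => ?_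
    by_cases hx : x ∈ T
    · simp only [hx, if_true]
      rw [← sum_mul, h1, h2 _ (hT' x hx).1]
      field_simp
    · simp only [hx, if_false, mul_ite, mul_one, mul_zero]
      rw [sum_ite_eq', if_pos (Fintype.mem_piFinset.1 hZ x)]
  have hsum1 : ∑ Z ∈ W, ∏ x, ρ (Z x) = 1 := by
    rw [hW, ← Finset.prod_univ_sum (fun _ : α => range (R + 1)) (fun _ a => ρ a)]
    simp [h1]
  have key : (∑ w ∈ W.filter (fun w => ¬ ∃ H ∈ F, Ok (lam H) H w 0), ∏ x, ρ (w x)) * (1 / 2) ≤
      1 / 8 := by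
    calc _ ≤ ∑ w ∈ W.filter (fun w => ¬ ∃ H ∈ F, Ok (lam H) H w 0), (∏ x, ρ (w x)) *
            ∑ Z ∈ W, ∑ T ∈ V Z, if (∀ x, x ∉ T → w x = Z x) then p ^ T.card else 0 := by
          rw [sum_mul]
          exact sum_le_sum fun w hw => mul_le_mul_of_nonneg_left (step1 w hw) (hwt w)
      _ ≤ ∑ w ∈ W, (∏ x, ρ (w x)) *
            ∑ Z ∈ W, ∑ T ∈ V Z, if (∀ x, x ∉ T → w x = Z x) then p ^ T.card else 0 := by
          refine sum_le_sum_of_subset_of_nonneg (filter_subset _ _) fun w _ _ =>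
            mul_nonneg (hwt w) (sum_nonneg fun Z _ => sum_nonneg fun T _ => ?_)
          split_ifs <;> positivity
      _ = ∑ Z ∈ W, ∑ T ∈ V Z, ∑ w ∈ W, (∏ x, ρ (w x)) *
            (if (∀ x, x ∉ T → w x = Z x) then p ^ T.card else 0) := by
          simp only [mul_sum]
          rw [sum_comm]
          exact sum_congr rfl fun Z _ => sum_comm
      _ = ∑ Z ∈ W, (∏ x, ρ (Z x)) * ∑ T ∈ V Z, ∏ x ∈ T, (1 / (1024 * 8 ^ Z x) : ℝ) := by
          refine sum_congr rfl fun Z hZ => ?_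
          rw [mul_sum]
          exact sum_congr rfl fun T hT => step2 Z hZ T hT
      _ ≤ ∑ Z ∈ W, (∏ x, ρ (Z x)) * (1 / 8) :=
          sum_le_sum fun Z _ => mul_le_mul_of_nonneg_left
            (count R Z (A Z) fun u j => top_card _ _ _) (hwt Z)
      _ = 1 / 8 := by rw [← sum_mul, hsum1, one_mul]
  linarith

omit [Fintype α] [DecidableEq α] in
lemma sum_le_of_ok (lam : α → ℝ) (H : Finset α) (w : α → ℕ) (h : Ok lam H w 0) (x0 : α)
    (hx0 : x0 ∈ H) : 0 ≤ ∑ x ∈ lev lam H x0, (2 - (w x : ℝ)) := by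
  set C := lev lam H x0 with hC
  obtain ⟨R, hR⟩ : ∃ R, ∀ x ∈ C, w x ≤ R := ⟨C.sup w, fun x hx => le_sup hx⟩
  have h1 : ∑ x ∈ C, (w x : ℝ) = ∑ j ∈ range R, (miss w j C : ℝ) := by
    simp only [miss, card_filter, Nat.cast_sum]
    rw [sum_comm]
    refine sum_congr rfl fun x hx => ?_
    rw [← Nat.cast_sum, ← card_filter]
    congr 1
    have : (range R).filter (fun j => j < w x) = range (w x) := by
      ext j
      have := hR x hx
      simp only [mem_filter, mem_range]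
      omega
    rw [this, card_range]
  have h2 : ∀ j, (miss w j C : ℝ) ≤ C.card * (1 / 2) ^ j := by
    intro j
    have := h j x0 hx0
    simp only [Pi.zero_apply, zero_mul, zero_le, inf_of_le_left, add_zero] at this
    have h3 : (miss w j C : ℝ) * 2 ^ (j + 1) ≤ 2 * C.card := by exact_mod_cast this
    rw [one_div, inv_pow, ← div_eq_mul_inv, le_div_iff₀ (by positivity)]
    rw [pow_succ] at h3
    linarith
  have h3 : ∑ j ∈ range R, (miss w j C : ℝ) ≤ C.card * 2 := by
    refine le_trans (sum_le_sum fun j _ => h2 j) ?_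
    rw [← mul_sum]
    exact mul_le_mul_of_nonneg_left (sum_geometric_two_le R) (by positivity)
  rw [sum_sub_distrib, h1]
  simp only [sum_const, nsmul_eq_mul]
  linarith

lemma good_ge (g : Finset α → ℝ) (hg : ∀ S, 0 ≤ g S) (hg0 : g ∅ ≤ 1 / 2) (H : Finset α)
    (hcov : 1 ≤ ∑ S ∈ H.powerset, g S) (w : α → ℕ)
    (h : Ok (fun x => ∑ S ∈ H.powerset with x ∈ S, g S) H w 0) :
    1 / 2 ≤ ∑ S ∈ univ.erase ∅, g S * ∏ x ∈ S, Real.exp (3 * (2 - (w x : ℝ))) := by
  have h1 := abel (fun x => 2 - (w x : ℝ)) H (fun x => ∑ S ∈ H.powerset with x ∈ S, g S)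
    (fun x _ => sum_nonneg fun S _ => hg S) (fun x0 hx0 => sum_le_of_ok _ H w h x0 hx0)
  have h2 : ∑ x ∈ H, (2 - (w x : ℝ)) * ∑ S ∈ H.powerset with x ∈ S, g S =
      ∑ S ∈ H.powerset, g S * ∑ x ∈ S, (2 - (w x : ℝ)) := by
    simp only [sum_filter, mul_sum]
    rw [sum_comm]
    refine sum_congr rfl fun S hS => ?_
    simp only [mul_ite, mul_zero]
    rw [sum_ite_mem, inter_eq_right.2 (mem_powerset.1 hS)]
    exact sum_congr rfl fun x _ => mul_comm _ _
  rw [h2, ← add_sum_erase _ _ (empty_mem_powerset H)] at h1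
  rw [← add_sum_erase _ _ (empty_mem_powerset H)] at hcov
  simp only [sum_empty, mul_zero, zero_add] at h1
  calc (1 / 2 : ℝ) ≤ ∑ S ∈ H.powerset.erase ∅, g S * (1 + 3 * ∑ x ∈ S, (2 - (w x : ℝ))) := by
        have : ∑ S ∈ H.powerset.erase ∅, g S * (1 + 3 * ∑ x ∈ S, (2 - (w x : ℝ))) =
            ∑ S ∈ H.powerset.erase ∅, g S +
              3 * ∑ S ∈ H.powerset.erase ∅, g S * ∑ x ∈ S, (2 - (w x : ℝ)) := by
          rw [mul_sum, ← sum_add_distrib]
          exact sum_congr rfl fun S _ => by ring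
        linarith
    _ ≤ ∑ S ∈ H.powerset.erase ∅, g S * ∏ x ∈ S, Real.exp (3 * (2 - (w x : ℝ))) := by
        refine sum_le_sum fun S _ => mul_le_mul_of_nonneg_left ?_ (hg S)
        rw [← Real.exp_sum, ← mul_sum]
        linarith [Real.add_one_le_exp (3 * ∑ x ∈ S, (2 - (w x : ℝ)))]
    _ ≤ _ := sum_le_sum_of_subset_of_nonneg (erase_subset_erase _ (subset_univ _))
        fun S _ _ => mul_nonneg (hg S) (by positivity)

lemma mean_y (q : ℝ) (hq : 0 < q) (R : ℕ) (ρ : ℕ → ℝ) (h3 : ∀ j ≤ R, ρ j ≤ q * 8 ^ j) :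
    ∑ a ∈ range (R + 1), ρ a * Real.exp (3 * (2 - (a : ℝ))) ≤ 2000 * q := by
  have e6 : Real.exp 6 ≤ 1000 := by
    have : Real.exp 6 = Real.exp 1 ^ 6 := by rw [← Real.exp_nat_mul]; norm_num
    rw [this]
    calc Real.exp 1 ^ 6 ≤ 3 ^ 6 := pow_le_pow_left₀ (by positivity) (by linarith [Real.exp_one_lt_d9]) _
      _ ≤ 1000 := by norm_num
  have e3 : 16 ≤ Real.exp 3 := by
    have : Real.exp 3 = Real.exp 1 ^ 3 := by rw [← Real.exp_nat_mul]; norm_num
    rw [this]
    calc (16 : ℝ) ≤ 2.7 ^ 3 := by norm_num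
      _ ≤ _ := pow_le_pow_left₀ (by positivity) (by linarith [Real.exp_one_gt_d9]) _
  have : ∀ a ∈ range (R + 1), ρ a * Real.exp (3 * (2 - (a : ℝ))) ≤ 1000 * q * (1 / 2) ^ a := by
    intro a ha
    have h1 : Real.exp (3 * (2 - (a : ℝ))) = Real.exp 6 / Real.exp 3 ^ a := by
      rw [← Real.exp_nat_mul, ← Real.exp_sub]; congr 1; ring
    have h2 : Real.exp 6 / Real.exp 3 ^ a ≤ 1000 / 16 ^ a := by gcongr
    rw [h1]
    refine le_trans (mul_le_mul (h3 a (Nat.lt_succ_iff.1 (mem_range.1 ha))) h2 (by positivity)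
      (by positivity)) (le_of_eq ?_)
    have h16 : (16 : ℝ) ^ a = 2 ^ a * 8 ^ a := by rw [← mul_pow]; norm_num
    rw [h16, one_div, inv_pow]
    field_simp
  refine le_trans (sum_le_sum this) ?_
  rw [← mul_sum]
  nlinarith [sum_geometric_two_le (R + 1)]

/-- fractional cover at `r` gives integral cover at `r / 2 ^ 23` -/
theorem frac_to_int' (F : Finset (Finset α)) (r : ℝ) (hr0 : 0 ≤ r) (g : Finset α → ℝ)
    (hg : ∀ S, 0 ≤ g S) (hcov : ∀ H ∈ F, 1 ≤ ∑ S ∈ H.powerset, g S)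
    (hcost : ∑ S : Finset α, g S * r ^ S.card ≤ 1 / 2) :
    ∃ G : Finset (Finset α), (∀ H ∈ F, ∃ S ∈ G, S ⊆ H) ∧
      ∑ S ∈ G, (r / 2 ^ 23) ^ S.card ≤ 1 / 2 := by
  classical
  have hg0 : g ∅ ≤ 1 / 2 := by
    refine le_trans ?_ hcost
    refine le_trans (le_of_eq ?_) (single_le_sum (f := fun S : Finset α => g S * r ^ S.card)
      (fun S _ => mul_nonneg (hg S) (by positivity)) (mem_univ ∅))
    simp
  rcases hr0.eq_or_lt with rfl | hr
  · refine ⟨univ.erase ∅, fun H hH => ⟨H, mem_erase.2 ⟨?_, mem_univ _⟩, subset_rfl⟩, ?_⟩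
    · rintro rfl
      have := hcov _ hH
      simp only [powerset_empty, sum_singleton] at this
      linarith
    · rw [sum_eq_zero]
      · norm_num
      intro S hS
      rw [zero_div, zero_pow (card_ne_zero.2 (nonempty_iff_ne_empty.2 (mem_erase.1 hS).1))]
  by_contra hcon
  push Not at hcon
  set p := r / 2 ^ 23 with hp
  have hp0 : 0 < p := by positivity
  obtain ⟨R, ρ, h0, h1, h2, h3⟩ := exists_levels (1024 * p) (by positivity)
  set lam : Finset α → α → ℝ := fun H x => ∑ S ∈ H.powerset with x ∈ S, g S with hlam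
  have hbad := bad_bound F lam p hp0 R ρ h0 h1 h2 fun G hG => (hcon G hG).le
  set W := Fintype.piFinset fun _ : α => range (R + 1) with hW
  have hwt : ∀ w : α → ℕ, 0 ≤ ∏ x, ρ (w x) := fun w => prod_nonneg fun x _ => h0 _
  have hsum1 : ∑ Z ∈ W, ∏ x, ρ (Z x) = 1 := by
    rw [hW, ← Finset.prod_univ_sum (fun _ : α => range (R + 1)) (fun _ a => ρ a)]
    simp [h1]
  have hm := mean_y (1024 * p) (by positivity) R ρ h3
  set m := ∑ a ∈ range (R + 1), ρ a * Real.exp (3 * (2 - (a : ℝ))) with hmdef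
  have hm0 : 0 ≤ m := sum_nonneg fun a _ => mul_nonneg (h0 a) (by positivity)
  have hm1 : m ≤ r / 4 := by
    have : r = 2 ^ 23 * p := by rw [hp]; field_simp
    rw [this]
    nlinarith
  have hgood : (∑ w ∈ W.filter (fun w => ∃ H ∈ F, Ok (lam H) H w 0), ∏ x, ρ (w x)) * (1 / 2) ≤
      1 / 8 := by
    calc _ ≤ ∑ w ∈ W.filter (fun w => ∃ H ∈ F, Ok (lam H) H w 0), (∏ x, ρ (w x)) *
            ∑ S ∈ univ.erase ∅, g S * ∏ x ∈ S, Real.exp (3 * (2 - (w x : ℝ))) := by
          rw [sum_mul]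
          refine sum_le_sum fun w hw => mul_le_mul_of_nonneg_left ?_ (hwt w)
          obtain ⟨H, hH, hok⟩ := (mem_filter.1 hw).2
          exact good_ge g hg hg0 H (hcov H hH) w hok
      _ ≤ ∑ w ∈ W, (∏ x, ρ (w x)) *
            ∑ S ∈ univ.erase ∅, g S * ∏ x ∈ S, Real.exp (3 * (2 - (w x : ℝ))) :=
          sum_le_sum_of_subset_of_nonneg (filter_subset _ _) fun w _ _ =>
            mul_nonneg (hwt w) (sum_nonneg fun S _ => mul_nonneg (hg S) (by positivity))
      _ = ∑ S ∈ univ.erase ∅, g S * m ^ S.card := by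
          simp only [mul_sum]
          rw [sum_comm]
          refine sum_congr rfl fun S _ => ?_
          have e1 : ∀ w : α → ℕ, (∏ x, ρ (w x)) * (g S * ∏ x ∈ S, Real.exp (3 * (2 - (w x : ℝ)))) =
              g S * ∏ x, (ρ (w x) * if x ∈ S then Real.exp (3 * (2 - (w x : ℝ))) else 1) := by
            intro w
            rw [prod_mul_distrib]
            simp only [prod_ite_mem, univ_inter]
            ring
          rw [sum_congr rfl fun w _ => e1 w, ← mul_sum, hW,
            ← Finset.prod_univ_sum (fun _ : α => range (R + 1))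
            (fun x a => ρ a * if x ∈ S then Real.exp (3 * (2 - (a : ℝ))) else 1)]
          congr 1
          rw [prod_congr rfl (g := fun x => if x ∈ S then m else 1) fun x _ => by
            by_cases hx : x ∈ S
            · simp only [hx, if_true, hmdef]
            · simp only [hx, if_false, mul_one, h1]]
          simp
      _ ≤ ∑ S ∈ univ.erase ∅, 1 / 4 * (g S * r ^ S.card) := by
          refine sum_le_sum fun S hS => ?_
          obtain ⟨k, hk⟩ := Nat.exists_eq_succ_of_ne_zero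
            (card_ne_zero.2 (nonempty_iff_ne_empty.2 (mem_erase.1 hS).1))
          have : m ^ S.card ≤ 1 / 4 * r ^ S.card := by
            rw [hk, pow_succ, pow_succ]
            have : m ^ k ≤ r ^ k := pow_le_pow_left₀ hm0 (by linarith) _
            have h5 := mul_le_mul this hm1 hm0 (by positivity)
            linarith
          nlinarith [mul_le_mul_of_nonneg_left this (hg S)]
      _ ≤ 1 / 8 := by
          rw [← mul_sum]
          have : ∑ S ∈ univ.erase ∅, g S * r ^ S.card ≤ ∑ S : Finset α, g S * r ^ S.card :=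
            sum_le_sum_of_subset_of_nonneg (erase_subset _ _)
              fun S _ _ => mul_nonneg (hg S) (by positivity)
          linarith
  have := sum_filter_add_sum_filter_not W (fun w => ∃ H ∈ F, Ok (lam H) H w 0)
    (fun w => ∏ x, ρ (w x))
  linarith

/-- Talagrand's fractional versus integral expectation thresholds -/
theorem frac_to_int (F : Finset (Finset α)) (r : ℝ) (hr0 : 0 ≤ r) (g : Finset α → ℝ)
    (hg : ∀ S, 0 ≤ g S) (hcov : ∀ H ∈ F, 1 ≤ ∑ S ∈ H.powerset, g S)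
    (hcost : ∑ S : Finset α, g S * r ^ S.card ≤ 1 / 2) :
    ∃ G : Finset (Finset α), (∀ H ∈ F, ∃ S ∈ G, S ⊆ H) ∧
      ∑ S ∈ G, (r / (25 * 512 ^ 4)) ^ S.card ≤ 1 / 2 := by
  obtain ⟨G, h1, h2⟩ := frac_to_int' F r hr0 g hg hcov hcost
  refine ⟨G, h1, le_trans (sum_le_sum fun S _ => ?_) h2⟩
  gcongr
  norm_num

end Crest.Agent.H0071
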